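import Vale.Agent.P354D.Defs
import Vale.Agent.P354H.Sob
import Vale.Agent.P354HU.Uniq
import Vale.Agent.P354HL.Smooth

open scoped ContDiff
open MeasureTheory Set Filter Topology

namespace Vale.Agent.P354DI

open Vale.Agent.P354H Vale.Agent.P354D
open Vale.Agent.P354HU (deriv_int int_dx int_sl cont_fd)
open Vale.Agent.P354HL (pd_sl dx_sm)

theorem cont_int {A E : Type} [TopologicalSpace A] [FirstCountableTopology A] [LocallyCompactSpace A]
    [TopologicalSpace E] [MeasureSpace E] [OpensMeasurableSpace E] [SecondCountableTopology E]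
    [IsLocallyFiniteMeasure (volume : Measure E)] [T2Space E] {f : A × E → ℝ} (hf : Continuous f)
    (h : HasCompactSupport f) : Continuous fun s => ∫ x, f (s, x) := by
  have hK := h.image continuous_snd
  have h1 := continuous_parametric_integral_of_continuous (μ := (volume : Measure E))
    (f := fun s x => f (s, x)) hf hK
  refine h1.congr fun s => setIntegral_eq_integral_of_forall_compl_eq_zero fun x hx => ?_
  by_contra c
  exact hx ⟨(s, x), subset_tsupport _ c, rfl⟩

theorem cs_int {A E : Type} [TopologicalSpace A] [T2Space A] [TopologicalSpace E] [MeasureSpace E]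
    {f : A × E → ℝ} (h : HasCompactSupport f) : HasCompactSupport fun s => ∫ x, f (s, x) := by
  refine HasCompactSupport.intro (h.image continuous_fst) fun s hs => ?_
  have : ∀ x, f (s, x) = 0 := fun x => by
    by_contra c
    exact hs ⟨(s, x), subset_tsupport _ c, rfl⟩
  simp [this]

theorem ener : ENER := by
  intro f h g T hT hf hf' hg hg' hh hh' H
  have c1 : Continuous fun s => ∫ x, dt f (s, x) :=
    cont_int (cont_fd hf (1, 0)) (hf'.fderiv_apply ℝ ((1, 0) : ℝ × X3))
  have h1 := intervalIntegral.integral_eq_sub_of_hasDerivAt (a := 0) (b := T)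
    (fun s _ => deriv_int hf hf' s) (c1.intervalIntegrable _ _)
  have h2 : ∫ s in (0 : ℝ)..T, ∫ x, dt f (s, x) ≤ ∫ s in (0 : ℝ)..T, ∫ x, h (s, x) := by
    refine intervalIntegral.integral_mono_on hT (c1.intervalIntegrable _ _)
      ((cont_int hh hh').intervalIntegrable _ _) fun s hs => ?_
    have i1 : Integrable fun x => dt f (s, x) :=
      int_sl (cont_fd hf (1, 0)) (hf'.fderiv_apply ℝ ((1, 0) : ℝ × X3)) s
    have i2 : ∀ j, Integrable fun x => dx j (g j) (s, x) := fun j =>
      int_sl (cont_fd (hg j) (0, e j)) ((hg' j).fderiv_apply ℝ ((0, e j) : ℝ × X3)) s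
    have i3 := integrable_finsetSum Finset.univ fun j _ => i2 j
    have h3 := integral_mono (i1.add i3) (int_sl hh hh' s) fun x => H (s, x) hs
    simp only [Pi.add_apply] at h3
    rw [integral_add i1 i3, integral_finsetSum _ fun j _ => i2 j] at h3
    simpa [int_dx (hg _) (hg' _)] using h3
  linarith

theorem D_sm (A : Fin 2) {f : R4 → ℝ} (hf : ContDiff ℝ ∞ f) : ContDiff ℝ ∞ (D A f) := dx_sm hf _

theorem D_cs (A : Fin 2) {f : R4 → ℝ} (hf : HasCompactSupport f) : HasCompactSupport (D A f) :=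
  hf.fderiv_apply ℝ ((0, e A.succ) : ℝ × X3)

theorem Q_c0 (k : ℕ) {f : R4 → ℝ} (hf : ContDiff ℝ ∞ f) (h : HasCompactSupport f) :
    Continuous (Q k f) ∧ HasCompactSupport (Q k f) := by
  induction k generalizing f with
  | zero => exact ⟨hf.continuous.mul hf.continuous, h.mul_right⟩
  | succ k ih =>
    have h0 := ih (D_sm 0 hf) (D_cs 0 h)
    have h1 := ih (D_sm 1 hf) (D_cs 1 h)
    exact ⟨((hf.continuous.mul hf.continuous).add h0.1).add h1.1,
      ((h.mul_right (f' := f)).add h0.2).add h1.2⟩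

theorem Q_nn (k : ℕ) (f : R4 → ℝ) (p : R4) : 0 ≤ Q k f p := by
  induction k generalizing f with
  | zero => exact mul_self_nonneg _
  | succ k ih => exact add_nonneg (add_nonneg (mul_self_nonneg _) (ih _)) (ih _)

theorem D_mul (A : Fin 2) {f g : R4 → ℝ} (hf : ContDiff ℝ ∞ f) (hg : ContDiff ℝ ∞ g) :
    D A (fun p => f p * g p) = fun p => f p * D A g p + g p * D A f p := by
  funext p
  have h := ((hf.differentiable (by simp) p).hasFDerivAt.mul
    (hg.differentiable (by simp) p).hasFDerivAt).fderiv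
  simp only [D, dx]
  rw [show fderiv ℝ (fun p => f p * g p) p = _ from h]
  simp

theorem D_add (A : Fin 2) {f g : R4 → ℝ} (hf : ContDiff ℝ ∞ f) (hg : ContDiff ℝ ∞ g) :
    D A (fun p => f p + g p) = fun p => D A f p + D A g p := by
  funext p
  have h := ((hf.differentiable (by simp) p).hasFDerivAt.add
    (hg.differentiable (by simp) p).hasFDerivAt).fderiv
  simp only [D, dx]
  rw [show fderiv ℝ (fun p => f p + g p) p = _ from h]
  simp

/-- Integrability on the angular planes. -/
theorem int_ang {G : R4 → ℝ} (hG : Continuous G) (h : HasCompactSupport G) (t x : ℝ) :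
    Integrable fun z : ℝ × ℝ => G (t, x, z) := by
  refine (hG.comp (by fun_prop)).integrable_of_hasCompactSupport ?_
  refine HasCompactSupport.intro (h.image (continuous_snd.comp continuous_snd)) fun z hz => ?_
  by_contra c
  exact hz ⟨(t, x, z), subset_tsupport _ c, rfl⟩

theorem sob2 : SOB2 := by
  intro f t x y hf hc
  have hF : ContDiff ℝ ∞ fun p => f p * f p := hf.mul hf
  have hg : Good (sl (fun p => f p * f p) t) :=
    ⟨P354HL.sl_sm hF t, P354HU.cs_sl (hc.mul_right (f' := f)) t⟩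
  have hQ := Q_c0 2 hf hc
  have e1 : ∀ p : X3, ‖pd 2 (pd 1 (sl (fun p => f p * f p) t)) p‖ ≤ Q 2 f (t, p) := by
    intro p
    rw [pd_sl hF, pd_sl (dx_sm hF 1)]
    change |D 1 (D 0 fun p => f p * f p) (t, p)| ≤ _
    rw [D_mul 0 hf hf, D_add 1 (hf.mul (D_sm 0 hf)) (hf.mul (D_sm 0 hf)),
      D_mul 1 hf (D_sm 0 hf), abs_le]
    simp only [Q, B]
    constructor <;>
    nlinarith [sq_nonneg (f (t, p) + D 1 (D 0 f) (t, p)), sq_nonneg (f (t, p) - D 1 (D 0 f) (t, p)),
      sq_nonneg (D 0 f (t, p) + D 1 f (t, p)), sq_nonneg (D 0 f (t, p) - D 1 f (t, p)),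
      sq_nonneg (D 0 (D 0 f) (t, p)), sq_nonneg (D 0 (D 1 f) (t, p)),
      sq_nonneg (D 1 (D 1 f) (t, p))]
  have h1 : ‖sl (fun p => f p * f p) t (x, y)‖ₑ ≤
      ∫⁻ b : ℝ, ∫⁻ c : ℝ, ENNReal.ofReal (Q 2 f (t, x, (b, c) + y)) := by
    refine (line_bound 1 hg _).trans (lintegral_mono fun b => ?_)
    refine (line_bound 2 (hg.pd 1) _).trans (lintegral_mono fun c => ?_)
    have : ((x, y) : X3) + b • e 1 + c • e 2 = (x, (b, c) + y) := by
      ext <;> simp [e, add_comm]
    rw [this, ← ofReal_norm]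
    exact ENNReal.ofReal_le_ofReal (e1 _)
  have hi := int_ang hQ.1 hQ.2 t x
  have hm : Measurable fun z : ℝ × ℝ => ENNReal.ofReal (Q 2 f (t, x, z + y)) :=
    ENNReal.measurable_ofReal.comp (hQ.1.comp (by fun_prop)).measurable
  rw [← lintegral_prod _ hm.aemeasurable, ← Measure.volume_eq_prod,
    ← ofReal_integral_eq_lintegral_ofReal (hi.comp_add_right y)
      (Eventually.of_forall fun z => Q_nn _ _ _),
    integral_add_right_eq_self (fun z : ℝ × ℝ => Q 2 f (t, x, z)) y, ← ofReal_norm,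
    ENNReal.ofReal_le_ofReal_iff (integral_nonneg fun z => Q_nn _ _ _)] at h1
  have h2 : 0 ≤ ∫ z : ℝ × ℝ, Q 2 f (t, x, z) := integral_nonneg fun z => Q_nn _ _ _
  have h3 : f (t, x, y) ^ 2 ≤ ‖sl (fun p => f p * f p) t (x, y)‖ := by
    rw [pow_two]; exact le_abs_self _
  linarith

/-- The integral over the angles. -/
noncomputable def ang (G : R4 → ℝ) (q : ℝ × ℝ) : ℝ := ∫ z : ℝ × ℝ, G (q.1, q.2, z)

theorem ang_c0 {G : R4 → ℝ} (hG : Continuous G) (h : HasCompactSupport G) :
    Continuous (ang G) ∧ HasCompactSupport (ang G) := by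
  have h1 : HasCompactSupport fun p : (ℝ × ℝ) × ℝ × ℝ => G (p.1.1, p.1.2, p.2) :=
    h.comp_homeomorph (Homeomorph.prodAssoc ℝ ℝ (ℝ × ℝ))
  exact ⟨cont_int (f := fun p : (ℝ × ℝ) × ℝ × ℝ => G (p.1.1, p.1.2, p.2)) (by fun_prop) h1,
    cs_int (f := fun p : (ℝ × ℝ) × ℝ × ℝ => G (p.1.1, p.1.2, p.2)) h1⟩

theorem int_angG {G : R4 → ℝ} (hG : Continuous G) (h : HasCompactSupport G) (s : ℝ) :
    ∫ w, ang G (s, w) = ∫ x, G (s, x) :=
  (integral_prod (fun x : X3 => G (s, x)) (int_sl hG h s)).symm

theorem sob_w {F G : R4 → ℝ} {c d t x : ℝ} (hF : ContDiff ℝ ∞ F) (hF' : HasCompactSupport F)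
    (hG : Continuous G) (hG' : HasCompactSupport G) (hc : 0 ≤ c)
    (h : ∀ z, c * Q 2 F (t, x, z) ≤ d * G (t, x, z)) (y : ℝ × ℝ) :
    c * F (t, x, y) ^ 2 ≤ d * (2 * ang G (t, x)) := by
  have hQ := Q_c0 2 hF hF'
  have h1 := integral_mono ((int_ang hQ.1 hQ.2 t x).const_mul c) ((int_ang hG hG' t x).const_mul d) h
  rw [integral_const_mul, integral_const_mul] at h1
  have h2 := mul_le_mul_of_nonneg_left (sob2 F t x y hF hF') hc
  unfold ang
  linarith

theorem slice : SLICE := by
  intro z G γ hz hz' hG hG' hγ H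
  have hA := ang_c0 hG hG'
  refine ⟨fun w => 2 * ang G (0, w), by have := hA.1; fun_prop, ?_, fun w => ?_, fun w y => ?_, ?_⟩
  · refine HasCompactSupport.intro (hA.2.image continuous_snd) fun w hw => ?_
    by_contra c
    exact hw ⟨(0, w), subset_tsupport _ (fun h => c (by simp [h])), rfl⟩
  · exact mul_nonneg zero_le_two (integral_nonneg fun y =>
      (mul_nonneg (hγ w) (Q_nn _ _ _)).trans (H (w, y)))
  · simpa using sob_w (d := 1) hz hz' hG hG' (hγ w) (fun y => by simpa using H (w, y)) y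
  · rw [integral_const_mul, int_angG hG hG']

theorem cs_w {F h k : ℝ → ℝ} {γ T t I : ℝ} (hF : Continuous F) (hh : Continuous h)
    (hk : Continuous k) (hγ : 0 ≤ γ) (ht : t ∈ Icc 0 T) (h0 : ∀ s, 0 < h s)
    (hk0 : ∀ s ∈ Icc 0 T, 0 ≤ k s) (H : ∀ s ∈ Icc 0 T, γ * F s ^ 2 ≤ h s * k s)
    (hI : ∫ s in (0 : ℝ)..T, h s ≤ I) :
    γ * (∫ s in (0 : ℝ)..t, F s) ^ 2 ≤ I * ∫ s in (0 : ℝ)..T, k s := by
  have m1 : ∫ s in (0 : ℝ)..t, h s ≤ ∫ s in (0 : ℝ)..T, h s :=
    intervalIntegral.integral_mono_interval le_rfl ht.1 ht.2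
      (Eventually.of_forall fun s => (h0 s).le) (hh.intervalIntegrable _ _)
  have m2 : ∫ s in (0 : ℝ)..t, k s ≤ ∫ s in (0 : ℝ)..T, k s :=
    intervalIntegral.integral_mono_interval le_rfl ht.1 ht.2
      (ae_restrict_of_forall_mem measurableSet_Ioc fun s hs => hk0 s ⟨hs.1.le, hs.2⟩)
      (hk.intervalIntegrable _ _)
  have hd := discrim_le_zero (a := I) (b := -2 * √γ * ∫ s in (0 : ℝ)..t, F s)
    (c := ∫ s in (0 : ℝ)..T, k s) fun r => by
      have i1 : IntervalIntegrable (fun s => h s * (r * r)) volume 0 t :=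
        (hh.mul continuous_const).intervalIntegrable _ _
      have i2 : IntervalIntegrable (fun s => -2 * √γ * r * F s) volume 0 t :=
        (continuous_const.mul hF).intervalIntegrable _ _
      have h1 : 0 ≤ ∫ s in (0 : ℝ)..t, (h s * (r * r) + -2 * √γ * r * F s + k s) :=
        intervalIntegral.integral_nonneg ht.1 fun s hs => by
          have h2 := H s ⟨hs.1, hs.2.trans ht.2⟩
          have h3 := Real.sq_sqrt hγ
          refine le_of_mul_le_mul_left ?_ (h0 s)
          nlinarith [sq_nonneg (h s * r - √γ * F s)]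
      rw [intervalIntegral.integral_add (i1.add i2) (hk.intervalIntegrable _ _),
        intervalIntegral.integral_add i1 i2, intervalIntegral.integral_mul_const,
        intervalIntegral.integral_const_mul] at h1
      nlinarith [mul_le_mul_of_nonneg_right (m1.trans hI) (mul_self_nonneg r)]
  have h3 := Real.sq_sqrt hγ
  rw [discrim] at hd
  nlinarith

theorem line : LINE := by
  intro z F G h γ ε T I hT hz hF hF' hG hG' _ hγ hh h0 hy hI H
  have hA := ang_c0 hG hG'
  have hA1 := hA.1
  have hI0 : 0 ≤ I := (intervalIntegral.integral_nonneg hT fun s _ => (h0 _).le).trans (hI 0)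
  have hG0 : ∀ p : R4, p.1 ∈ Icc 0 T → 0 ≤ G p := fun p hp =>
    nonneg_of_mul_nonneg_right ((mul_nonneg (hγ _) (Q_nn _ _ _)).trans (H p hp).2) (h0 p)
  have hk0 : ∀ w, ∀ s ∈ Icc 0 T, 0 ≤ 2 * ang G (s, w + ε * s) := fun w s hs =>
    mul_nonneg zero_le_two (integral_nonneg fun y => hG0 _ hs)
  have hsh : HasCompactSupport fun q : ℝ × ℝ => ang G (q.1, q.2 + ε * q.1) := by
    refine HasCompactSupport.intro (hA.2.image
      (f := fun q : ℝ × ℝ => (q.1, q.2 - ε * q.1)) (by fun_prop)) fun q hq => ?_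
    by_contra c
    exact hq ⟨_, subset_tsupport _ c, by simp⟩
  refine ⟨fun w => I * ∫ s in (0 : ℝ)..T, 2 * ang G (s, w + ε * s), continuous_const.mul
    (intervalIntegral.continuous_parametric_intervalIntegral_of_continuous' (by fun_prop) _ _),
    ?_, fun w => mul_nonneg hI0 (intervalIntegral.integral_nonneg hT (hk0 w)),
    fun w y t ht => ?_, ?_⟩
  · refine HasCompactSupport.intro (hsh.image continuous_snd) fun w hw => ?_
    have : ∀ s, ang G (s, w + ε * s) = 0 := fun s => by
      by_contra c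
      exact hw ⟨(s, w), subset_tsupport _ c, rfl⟩
    simp [this]
  · have hFc := hF.continuous
    have c1 : Continuous fun s => F (s, w + ε * s, y) := by fun_prop
    have h1 : ∫ s in (0 : ℝ)..t, F (s, w + ε * s, y) =
        z (t, w + ε * t, y) - z (0, w + ε * 0, y) := by
      refine intervalIntegral.integral_eq_sub_of_hasDerivAt
        (f := fun s => z (s, w + ε * s, y)) (fun s hs => ?_) (c1.intervalIntegrable _ _)
      rw [uIcc_of_le ht.1] at hs
      have d1 : HasDerivAt (fun s : ℝ => ((s, w + ε * s, y) : R4)) (1, ε * 1, 0) s :=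
        (hasDerivAt_id s).prodMk ((((hasDerivAt_id s).const_mul ε).const_add w).prodMk
          (hasDerivAt_const s y))
      have d2 := (hz.differentiable (by simp) _).hasFDerivAt.comp_hasDerivAt s d1
      rw [← (H (s, w + ε * s, y) ⟨hs.1, hs.2.trans ht.2⟩).1]
      have : ((1, ε * 1, 0) : R4) = (1, 0) + ε • (0, e 0) := by
        ext <;> simp [e]
      rw [this, map_add, map_smul] at d2
      exact d2
    rw [mul_zero, add_zero] at h1
    rw [← h1]
    refine cs_w (h := fun s => h (s, w + ε * s, 0)) c1 (by fun_prop) (by fun_prop) (hγ w) ht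
      (fun s => h0 _) (hk0 w) (fun s hs => ?_) (hI w)
    refine sob_w hF hF' hG hG' (hγ w) (fun y' => ?_) y
    have := (H (s, w + ε * s, y') hs).2
    rw [hy s _ y' 0] at this
    simpa using this
  · have hi : Integrable (Function.uncurry fun s w : ℝ => ang G (s, w + ε * s))
        ((volume.restrict (uIoc 0 T)).prod volume) := by
      have h1 : Integrable (fun q : ℝ × ℝ => ang G (q.1, q.2 + ε * q.1)) (volume.prod volume) :=
        (by fun_prop : Continuous fun q : ℝ × ℝ =>
          ang G (q.1, q.2 + ε * q.1)).integrable_of_hasCompactSupport hsh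
      exact h1.mono_measure (Measure.prod_mono Measure.restrict_le_self le_rfl)
    simp only [intervalIntegral.integral_const_mul, integral_const_mul]
    rw [← intervalIntegral_integral_swap hi]
    have : ∀ s, ∫ w, ang G (s, w + ε * s) = ∫ x, G (s, x) := fun s => by
      rw [integral_add_right_eq_self (fun w => ang G (s, w)) (ε * s), int_angG hG hG']
    simp only [this]
    exact le_of_eq (by ring)

end Vale.Agent.P354DI
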